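import Crest.Agent.N233.Pc.QB_Mg
import Crest.Agent.N233.Pc.Gl
import Crest.Agent.N233.Pc.Ch
import Crest.Agent.N233.Pc.Sum_Mg
import Crest.Agent.N233.Pc.PrS
import Crest.Agent.N233.Pc.In0

-- ▼ part N233/Ae/Asm
section

/-!
# Row 233 (helper61): the glued space `W.Gl g` has null-homotopic compact sets
-/

set_option autoImplicit false
open Set unitInterval Topology Filter Relation

noncomputable section

namespace Crest.Agent.N233.Ae

open Hyp Pc

variable {Ed F Nd : Type} [Group F] {W : Wl (Ed × Bool)}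

/-- the node on the side `b` of the edge `e` -/
def side (g : Ed × Bool → F) (wn : Ed × Bool → Nd) (b : Bool) (e : F × Ed) : F × Nd :=
  (e.1 * g (e.2, b), wn (e.2, b))

/-- the wall -/
def wall {J : Type} (W : Wl J) (j : J) : Set W.E := {x | W.t j x = 0}

/-- components `nd` and height `r` of a piece -/
structure Cp {J Nd : Type} (W : Wl J) (nd : W.E → Nd) (wn : J → Nd) (r : W.E → ℝ) : Prop where
  nd_w : ∀ j v, nd (W.w j v) = wn j
  r_w : ∀ j v, r (W.w j v) = ht v.2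
  cont : Continuous r
  cl : ∀ n, IsClosed {x | nd x = n}
  cpt : ∀ a, IsCompact {x | r x ≤ a}

/-- truncated component -/
def tr {E Nd : Type} (nd : E → Nd) (r : E → ℝ) (n : Nd) (a : ℝ) : Set E := {x | nd x = n ∧ r x ≤ a}

/-- walls that die: a wall dies if it is null-homotopic in one of its two pieces modulo dead walls -/
inductive Kl (Y : Type) [TopologicalSpace Y] (W : Wl (Ed × Bool)) (nd : W.E → Nd)
    (wn : Ed × Bool → Nd) (r : W.E → ℝ) : Ed → Prop
  | mk (j : Ed × Bool) (J : Set (Ed × Bool)) : (∀ j' ∈ J, Kl Y W nd wn r j'.1) →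
      (∀ a, 0 ≤ a → Nq Y (tr nd r (wn j) a) (Rel (wall W) J) (tr nd r (wn j) a ∩ wall W j)) →
      Kl Y W nd wn r j.1


namespace Cp
variable {nd : W.E → Nd} {wn : Ed × Bool → Nd} {r : W.E → ℝ} (C : Cp W nd wn r)
  (g : Ed × Bool → F)

/-- pieces of the glued space -/
def EE (nd : W.E → Nd) (r : W.E → ℝ) (g : Ed × Bool → F) (a : ℝ) (v : F × Nd) : Set (W.Gl g) :=
  W.cy g v.1 '' tr nd r v.2 a

/-- walls of the glued space -/
def DD (W : Wl (Ed × Bool)) (g : Ed × Bool → F) (a : ℝ) (e : F × Ed) : Set (W.Gl g) :=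
  (fun v => W.cy g (e.1 * g (e.2, true)) (W.w (e.2, true) v)) '' {v | ht v.2 ≤ a}

theorem cy_b (f : F) (e : Ed) (b : Bool) (v : VW) :
    W.cy g (f * g (e, b)) (W.w (e, b) v) = W.cy g (f * g (e, true)) (W.w (e, true) v) := by
  cases b
  exacts [Wl.cy_w f (e, false) v, rfl]

theorem mem_DD {a : ℝ} {e : F × Ed} {f : F} {x : W.E} : W.cy g f x ∈ DD W g a e ↔
    ∃ b v, f = e.1 * g (e.2, b) ∧ x = W.w (e.2, b) v ∧ ht v.2 ≤ a := by
  constructor
  · rintro ⟨v, hv, k⟩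
    rcases Wl.cy_eq.1 k with ⟨rfl, rfl⟩ | ⟨f0, j, v', k1, k2, rfl, rfl⟩
    · exact ⟨true, v, rfl, rfl, hv⟩
    · obtain ⟨rfl, rfl⟩ := W.w_eq k2
      obtain rfl := mul_right_cancel k1
      exact ⟨false, v, rfl, rfl, hv⟩
  · rintro ⟨b, v, rfl, rfl, hv⟩
    exact ⟨v, hv, (cy_b g _ _ b v).symm⟩

include C

theorem cpt_tr (n : Nd) (a : ℝ) : IsCompact (tr nd r n a) := (C.cpt a).inter_left (C.cl n)

theorem w_tr {j : Ed × Bool} {v : VW} {a : ℝ} (h : ht v.2 ≤ a) : W.w j v ∈ tr nd r (wn j) a :=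
  ⟨C.nd_w j v, by rw [C.r_w]; exact h⟩

theorem DD_eq (a : ℝ) (f : F) (j : Ed × Bool) :
    DD W g a (f, j.1) = W.cy g (f * g j) '' (tr nd r (wn j) a ∩ wall W j) := by
  ext y
  constructor
  · rintro ⟨v, hv, rfl⟩
    exact ⟨W.w j v, ⟨C.w_tr hv, W.t_w j v⟩, cy_b g f j.1 j.2 v⟩
  · rintro ⟨x, ⟨k, k'⟩, rfl⟩
    obtain ⟨v, rfl⟩ := W.exists_w k'
    exact (mem_DD g).2 ⟨j.2, v, rfl, rfl, C.r_w j v ▸ k.2⟩

theorem cy_mem {a : ℝ} {n : Nd} {x : W.E} (hx : x ∈ tr nd r n a) {j : Ed × Bool}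
    (hj : x ∈ wall W j) (f : F) : W.cy g f x ∈ DD W g a (f * (g j)⁻¹, j.1) ∧ wn j = n := by
  obtain ⟨v, rfl⟩ := W.exists_w hj
  exact ⟨(mem_DD g).2 ⟨j.2, v, by simp, rfl, C.r_w j v ▸ hx.2⟩, (C.nd_w j v).symm.trans hx.1⟩

variable {g} (hc : Coc (side g wn true) (side g wn false))
include hc

omit C in
theorem side_ne (e : F × Ed) (b : Bool) : side g wn b e ≠ side g wn (!b) e := by
  cases b
  exacts [(src_ne_tgt hc e).symm, src_ne_tgt hc e]

theorem injOn (f : F) (n : Nd) (a : ℝ) : InjOn (W.cy g f) (tr nd r n a) := fun x hx x' hx' k => by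
  rcases Wl.cy_eq.1 k with ⟨-, k⟩ | ⟨f0, j, v, k1, rfl, k2, rfl⟩
  · exact k
  · exact absurd (Prod.ext (k1.symm.trans k2) (((C.nd_w _ v).symm.trans hx.1).trans
      (hx'.1.symm.trans (C.nd_w _ v)))) (side_ne hc (f0, j.1) j.2)

variable [Finite Ed]

theorem ts (hn : ∀ t t', ReflTransGen
      (fun u v => ∃ e, End (side g wn true) (side g wn false) e u v) t t')
    (cb : Ed → Bool) {a : ℝ} (ha : 0 ≤ a) :
    TS (side g wn true) (side g wn false) (fun e => side g wn (cb e.2) e)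
      (fun e => side g wn (!cb e.2) e) (EE nd r g a) (DD W g a) where
  coc := hc
  conn := hn
  ends e := by
    cases cb e.2
    exacts [Or.inr ⟨rfl, rfl⟩, Or.inl ⟨rfl, rfl⟩]
  fin v := (finite_range fun e : Ed => (v.1 * (g (e, cb e))⁻¹, e)).subset fun e he =>
    ⟨e.2, Prod.ext (by rw [← show _ = v from he]; simp [side]) rfl⟩
  cE v := (C.cpt_tr _ a).image (Wl.continuous_cy _)
  cD e := by
    rw [show DD W g a e = _ from C.DD_eq g a e.1 (e.2, true)]
    exact Wl.cy_closed _ _ ((C.cpt_tr _ a).isClosed.inter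
      (isClosed_eq (W.t _).continuous continuous_const))
  ne e := ⟨_, (alK 0, 0), (ht_eq_zero.2 (by simp)).le.trans ha, rfl⟩
  sub e := by
    rintro _ ⟨v, hv, rfl⟩
    exact ⟨⟨_, C.w_tr hv, rfl⟩, ⟨_, C.w_tr hv, cy_b g e.1 e.2 false v⟩⟩
  disj e e' := by
    rintro _ ⟨v, -, rfl⟩ k
    obtain ⟨b, v', k1, k2, -⟩ := (mem_DD g).1 k
    obtain ⟨k3, -⟩ := W.w_eq k2
    rw [← k3] at k1
    exact Prod.ext (mul_right_cancel k1) (congrArg Prod.fst k3)
  inter v w hvw := by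
    rintro _ ⟨x, hx, rfl⟩ ⟨x', hx', k⟩
    rcases Wl.cy_eq.1 k.symm with ⟨k1, rfl⟩ | ⟨f0, ⟨e, b⟩, u, k1, rfl, k2, rfl⟩
    · exact absurd (Prod.ext k1 (hx.1.symm.trans hx'.1)) hvw
    · have e1 : v = side g wn b (f0, e) := Prod.ext k1 (hx.1.symm.trans (C.nd_w _ u))
      have e2 : w = side g wn (!b) (f0, e) := Prod.ext k2 (hx'.1.symm.trans (C.nd_w _ u))
      refine ⟨(f0, e), ?_, (mem_DD g).2 ⟨b, u, k1, rfl, C.r_w _ u ▸ hx.2⟩⟩
      cases b
      exacts [Or.inr ⟨e1, e2⟩, Or.inl ⟨e1, e2⟩]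

theorem q_EE {Y : Type} [TopologicalSpace Y] (cb : Ed → Bool) {a : ℝ} (v : F × Nd)
    (q : Q Y (tr nd r v.2 a) (Rel (wall W) {j | wn j = v.2 ∧ cb j.1 = j.2})) (x₀ : W.E) :
    Q Y (EE nd r g a v) (Rel (DD W g a) {e | side g wn (cb e.2) e = v}) := by
  refine q.map (C.cpt_tr _ a) (Wl.continuous_cy _).continuousOn (C.injOn hc _ _ a)
    (fun x hx x' hx' => ⟨fun ⟨j, hj, k, k'⟩ => ⟨_, ?_, (C.cy_mem g hx k _).1,
      (C.cy_mem g hx' k' _).1⟩, fun ⟨e, he, k, k'⟩ => ⟨(e.2, cb e.2), ⟨congrArg Prod.snd he, rfl⟩,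
        ?_, ?_⟩⟩) x₀
  · show side g wn (cb j.1) _ = v
    rw [hj.2]
    exact Prod.ext (by simp [side]) hj.1
  all_goals
    first
    | obtain ⟨b, u, k1, rfl, -⟩ := (mem_DD g).1 k
      have e1 : v = side g wn b e := Prod.ext k1 (hx.1.symm.trans (C.nd_w _ u))
      by_cases hb : b = cb e.2
      · rw [← hb]; exact W.t_w _ u
      · exact absurd (he.trans (e1.trans (by rw [Bool.eq_not_of_ne hb]))) (side_ne hc e _)
    | obtain ⟨b, u, k1, rfl, -⟩ := (mem_DD g).1 k'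
      have e1 : v = side g wn b e := Prod.ext k1 (hx'.1.symm.trans (C.nd_w _ u))
      by_cases hb : b = cb e.2
      · rw [← hb]; exact W.t_w _ u
      · exact absurd (he.trans (e1.trans (by rw [Bool.eq_not_of_ne hb]))) (side_ne hc e _)

theorem nul_DD (hn : ∀ t t', ReflTransGen
      (fun u v => ∃ e, End (side g wn true) (side g wn false) e u v) t t') {a : ℝ} (ha : 0 ≤ a)
    {e : Ed} (h : Kl (W.Gl g) W nd wn r e) (f : F) : Nul (DD W g a (f, e)) := by
  have L : LNE (W.Gl g) := @lne_euc _ _ 4 (charted (Wl.le_all le_VW))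
  induction h generalizing f with
  | mk j J _ q ih =>
    rw [C.DD_eq g a f j]
    refine (C.ts hc hn (fun _ => true) ha).nul_of_nq L (v := (f * g j, wn j))
      (J := (fun j' : Ed × Bool => (f * g j * (g j')⁻¹, j'.1)) '' J) ((toFinite J).image _) ?_
      (image_mono inter_subset_left) ((q a ha).map (C.cpt_tr _ a) inter_subset_left
        (Wl.continuous_cy _).continuousOn (C.injOn hc _ _ a)
        (fun x hx x' hx' ⟨j', hj, k, k'⟩ => ⟨_, mem_image_of_mem _ hj, (C.cy_mem g hx k _).1,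
          (C.cy_mem g hx' k' _).1⟩) (W.w j (alK 0, 0)))
    rintro _ ⟨j', hj, rfl⟩
    exact ih j' hj _

/-- **the glued space has null-homotopic compact sets** -/
theorem null [Finite Nd] (hn : ∀ t t', ReflTransGen
      (fun u v => ∃ e, End (side g wn true) (side g wn false) e u v) t t') (cb : Ed → Bool)
    (x₀ : W.E) (hq : ∀ n a, 0 ≤ a →
      Q (W.Gl g) (tr nd r n a) (Rel (wall W) {j | wn j = n ∧ cb j.1 = j.2}))
    (hk : ∀ e, Kl (W.Gl g) W nd wn r e) : Null (W.Gl g) := fun K hK => by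
  have L : LNE (W.Gl g) := @lne_euc _ _ 4 (charted (Wl.le_all le_VW))
  have : Nonempty (F × Nd) := ⟨(1, nd x₀)⟩
  let ρ : W.Gl g → ℝ := Wl.lift (fun _ x => r x) fun _ j v => by rw [C.r_w, C.r_w]
  have cρ : Continuous ρ := Wl.continuous_iff.2 fun _ => C.cont
  obtain ⟨a, ha⟩ := (hK.image cρ).bddAbove
  refine ((C.ts hc hn cb (le_max_left 0 a)).nul_fin L
    (fun v => C.q_EE hc cb v (hq _ _ (le_max_left 0 a)) x₀)
    (fun e => C.nul_DD hc hn (le_max_left 0 a) (hk e.2) e.1)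
    ((Wl.finite_copies hK).prod finite_univ)).mono fun y hy => ?_
  obtain ⟨f, x, rfl⟩ := Wl.exists_cy y
  exact mem_iUnion₂.2 ⟨(f, nd x), ⟨⟨x, hy⟩, trivial⟩, x,
    ⟨rfl, le_max_of_le_right (ha (mem_image_of_mem ρ hy))⟩, rfl⟩

end Cp

end Crest.Agent.N233.Ae

end
namespace Crest.Agent.N233.Ae.Kl
end Crest.Agent.N233.Ae.Kl
end

-- ▼ part N233/Ae/Sg
section

/-!
# Row 233 (helper61): the collapse data of a piece from those of its components
-/

set_option autoImplicit false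
open Set unitInterval Topology Filter Relation

noncomputable section

namespace Crest.Agent.N233.Ae

open Hyp Pc

/-- the height on a piece -/
def sm {S J : Type} [Fintype S] {Fc : Set S → Prop} {wl : J → Tor → S} (P : Bk Fc wl) (x : P.E) :
    ℝ := ∑ s, P.p x s

section
variable {S J : Type} [Fintype S] {Fc : Set S → Prop} {wl : J → Tor → S} (P : Bk Fc wl)

theorem sm_w (hT : TT) (j : J) (v : VW) : sm P (P.toWl.w j v) = ht v.2 := by
  rw [sm, show P.p (P.toWl.w j v) = _ from P.pκ j v, sum_pu, sum_pV hT]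

theorem sm_cont : Continuous (sm P) :=
  continuous_finsetSum _ fun s _ => (continuous_apply s).comp P.p.continuous

theorem sm_cpt (a : ℝ) : IsCompact {x | sm P x ≤ a} :=
  (P.cpt (max 0 a)).of_isClosed_subset (isClosed_le (sm_cont P) continuous_const) fun x hx =>
    (pi_norm_le_iff_of_nonneg (le_max_left _ _)).2 fun s => by
      rw [Real.norm_of_nonneg ((P.p_mem x).1 s)]
      exact ((Finset.single_le_sum (fun t _ => (P.p_mem x).1 t) (Finset.mem_univ s)).trans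
        hx).trans (le_max_right _ _)

theorem cp_bk (hT : TT) {Nd : Type} {nd : P.E → Nd} {wn : J → Nd}
    (h : ∀ j v, nd (P.toWl.w j v) = wn j) (cl : ∀ n, IsClosed {x | nd x = n}) :
    Cp P.toWl nd wn (sm P) :=
  ⟨h, sm_w P hT, sm_cont P, cl, sm_cpt P⟩





end

theorem sm_sigma {N : Type} {J S : N → Type} [Fintype N] [∀ n, Fintype (S n)]
    {Fc : ∀ n, Set (S n) → Prop} {wl : ∀ n, J n → Tor → S n} (P : ∀ n, Bk (Fc n) (wl n)) (n : N)
    (x : (P n).E) : sm (Bk.sigma P) ⟨n, x⟩ = sm (P n) x := sum_pu (Sigma.mk n) ((P n).p x)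

theorem sm_gm {S G J : Type} [Fintype S] [NormedAddCommGroup G] [NormedSpace ℝ G]
    {Fc : Set S → Prop} {pos : S → G} {C : Set G} {τ : J → R2 × R2 → G} (g : Gm C τ) (hT : TT)
    (T : Tri Fc pos C) {wl : J → Tor → S} (h) (x : g.E) :
    sm (g.bk hT T (wl := wl) h) x = g.r x := T.sum_smul (g.r_nonneg x) (g.π_mem x)

theorem isClosed_fst {N : Type} {E : N → Type} [∀ n, TopologicalSpace (E n)] (n : N) :
    IsClosed {x : Σ n, E n | x.1 = n} :=
  isClosed_sigma_iff.2 fun m => by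
    by_cases h : m = n <;> simp [h]

/-- the components of `W`: `ι n` identifies `En n` with the component `n` -/
structure Nodes {Ed Nd : Type} (W : Wl (Ed × Bool)) {J En : Nd → Type}
    [∀ n, TopologicalSpace (En n)] (e : Ed × Bool ≃ Σ n, J n) (ι : ∀ n, En n → W.E)
    (rn : ∀ n, En n → ℝ) (D : ∀ n, J n → Set (En n)) (nd : W.E → Nd) (r : W.E → ℝ) : Prop where
  cp : Cp W nd (fun j => (e j).1) r
  emb : ∀ n, IsClosedEmbedding (ι n)
  nd_ι : ∀ n x, nd (ι n x) = n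
  sur : ∀ x, ∃ y, ι (nd x) y = x
  r_ι : ∀ n x, r (ι n x) = rn n x
  mem : ∀ n i x, ι n x ∈ wall W (e.symm ⟨n, i⟩) ↔ x ∈ D n i

namespace Nodes
variable {Ed Nd : Type} {W : Wl (Ed × Bool)} {J En : Nd → Type} [∀ n, TopologicalSpace (En n)]
  {e : Ed × Bool ≃ Σ n, J n} {ι : ∀ n, En n → W.E} {rn : ∀ n, En n → ℝ}
  {D : ∀ n, J n → Set (En n)} {nd : W.E → Nd} {r : W.E → ℝ} (H : Nodes W e ι rn D nd r)
  {Y : Type} [TopologicalSpace Y]
include H

theorem tr_eq (n : Nd) (a : ℝ) : tr nd r n a = ι n '' {x | rn n x ≤ a} := by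
  ext x
  constructor
  · rintro ⟨rfl, k⟩
    obtain ⟨y, hy⟩ := H.sur x
    exact ⟨y, by rwa [mem_setOf_eq, ← H.r_ι, hy], hy⟩
  · rintro ⟨y, k, rfl⟩
    exact ⟨H.nd_ι n y, (H.r_ι n y).trans_le k⟩

theorem cpt (n : Nd) (a : ℝ) : IsCompact {x | rn n x ≤ a} := by
  have := (H.emb n).isCompact_preimage (H.cp.cpt a)
  simpa only [preimage_setOf_eq, H.r_ι] using this

theorem rel {n : Nd} (K : Set (J n)) (x x' : En n) : Rel (D n) K x x' ↔
    Rel (wall W) ((fun i => e.symm ⟨n, i⟩) '' K) (ι n x) (ι n x') :=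
  ⟨fun ⟨i, a, b, c⟩ => ⟨_, mem_image_of_mem _ a, (H.mem ..).2 b, (H.mem ..).2 c⟩,
    by rintro ⟨_, ⟨i, a, rfl⟩, b, c⟩; exact ⟨i, a, (H.mem ..).1 b, (H.mem ..).1 c⟩⟩

theorem q {n : Nd} {a : ℝ} {K : Set (J n)} (h : Q Y {x | rn n x ≤ a} (Rel (D n) K)) (x₀ : En n) :
    Q Y (tr nd r n a) (Rel (wall W) ((fun i => e.symm ⟨n, i⟩) '' K)) := by
  rw [H.tr_eq]
  exact h.map (H.cpt n a) (H.emb n).continuous.continuousOn (H.emb n).injective.injOn
    (fun x _ x' _ => H.rel K x x') x₀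

/-- a wall which is null-homotopic in its component modulo dead walls dies -/
theorem kl {n : Nd} (i : J n) (K : Set (J n))
    (hK : ∀ i' ∈ K, Kl Y W nd (fun j => (e j).1) r (e.symm ⟨n, i'⟩).1)
    (h : ∀ a, 0 ≤ a → Nq Y {x | rn n x ≤ a} (Rel (D n) K) ({x | rn n x ≤ a} ∩ D n i))
    (x₀ : En n) : Kl Y W nd (fun j => (e j).1) r (e.symm ⟨n, i⟩).1 := by
  refine .mk _ ((fun i => e.symm ⟨n, i⟩) '' K) (by rintro _ ⟨i', k, rfl⟩; exact hK i' k)
    fun a ha => ?_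
  simp only [Equiv.apply_symm_apply]
  rw [H.tr_eq]
  refine ((h a ha).map (H.cpt n a) inter_subset_left (H.emb n).continuous.continuousOn
    (H.emb n).injective.injOn (fun x _ x' _ => (H.rel K x x').1) x₀).mono Subset.rfl ?_
    fun _ _ _ _ k => k
  rintro _ ⟨⟨x, hx, rfl⟩, k⟩
  exact ⟨x, ⟨hx, (H.mem ..).1 k⟩, rfl⟩

theorem kl_q {n : Nd} (i : J n) (K : Set (J n))
    (hK : ∀ i' ∈ K, Kl Y W nd (fun j => (e j).1) r (e.symm ⟨n, i'⟩).1)
    (h : ∀ a, 0 ≤ a → Q Y {x | rn n x ≤ a} (Rel (D n) K)) (x₀ : En n) :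
    Kl Y W nd (fun j => (e j).1) r (e.symm ⟨n, i⟩).1 :=
  H.kl i K hK (fun a ha => (h a ha).nq.mono Subset.rfl inter_subset_left fun _ _ _ _ k => k) x₀

/-- `K n` = the chosen walls of the component `n`; every edge is chosen exactly once -/
theorem null {F : Type} [Group F] {g : Ed × Bool → F} [Finite Ed] [Finite Nd] [Nonempty Nd]
    (hc : Coc (side g (fun j => (e j).1) true) (side g (fun j => (e j).1) false))
    (hn : ∀ t t', ReflTransGen (fun u v => ∃ d, End (side g (fun j => (e j).1) true)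
      (side g (fun j => (e j).1) false) d u v) t t')
    (x₀ : ∀ n, En n) (K : ∀ n, Set (J n)) (cb : Ed → Bool)
    (hK : ∀ j, (e j).2 ∈ K (e j).1 ↔ cb j.1 = j.2)
    (hq : ∀ n a, 0 ≤ a → Q (W.Gl g) {x | rn n x ≤ a} (Rel (D n) (K n)))
    (hk : ∀ d, Kl (W.Gl g) W nd (fun j => (e j).1) r d) : Null (W.Gl g) := by
  refine H.cp.null hc hn cb (ι _ (x₀ (Classical.arbitrary Nd))) (fun n a ha => ?_) hk
  have : {j | (e j).1 = n ∧ cb j.1 = j.2} = (fun i => e.symm ⟨n, i⟩) '' K n := by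
    ext j
    constructor
    · rintro ⟨rfl, k⟩
      exact ⟨_, (hK j).2 k, e.symm_apply_apply j⟩
    · rintro ⟨i, k, rfl⟩
      refine ⟨by simp, (hK _).1 ?_⟩
      rw [Equiv.apply_symm_apply]
      exact k
  rw [this]
  exact H.q (hq n a ha) (x₀ n)

end Nodes

/-- the components of a sum -/
theorem nodes_sigma {Ed Nd : Type} {J : Nd → Type} (Ws : ∀ n, Wl (J n))
    (e : Ed × Bool ≃ Σ n, J n) {rn : ∀ n, (Ws n).E → ℝ} {r : (Σ n, (Ws n).E) → ℝ}
    (hr : ∀ n x, r ⟨n, x⟩ = rn n x)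
    (C : Cp ((Wl.sigma Ws).reindex e) Sigma.fst (fun j => (e j).1) r) :
    Nodes ((Wl.sigma Ws).reindex e) e (fun n x => ⟨n, x⟩) rn (fun n => wall (Ws n)) Sigma.fst r where
  cp := C
  emb n := @IsClosedEmbedding.sigmaMk Nd (fun n => (Ws n).E) _ n
  nd_ι _ _ := rfl
  sur x := ⟨x.2, rfl⟩
  r_ι := hr
  mem n i x := by
    show tσ Ws (e (e.symm ⟨n, i⟩)) ⟨n, x⟩ = 0 ↔ (Ws n).t i x = 0
    rw [Equiv.apply_symm_apply, tσ_same]

/-- the components of a sum of pieces -/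
theorem nodes_bk {Ed Nd : Type} {J S : Nd → Type} [Fintype Nd] [∀ n, Fintype (S n)]
    {Fc : ∀ n, Set (S n) → Prop} {wl : ∀ n, J n → Tor → S n} (P : ∀ n, Bk (Fc n) (wl n))
    (e : Ed × Bool ≃ Σ n, J n) (hT : TT) :
    Nodes ((Bk.sigma P).reindex e).toWl e (fun n x => ⟨n, x⟩) (fun n => sm (P n))
      (fun n => wall (P n).toWl) Sigma.fst (sm ((Bk.sigma P).reindex e)) :=
  nodes_sigma (fun n => (P n).toWl) e (sm_sigma P)
    (cp_bk ((Bk.sigma P).reindex e) hT (fun _ _ => rfl) isClosed_fst)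

end Crest.Agent.N233.Ae

end
end

-- ▼ part N233/Pc/QS
section

/-!
# Row 233 (helper53): the Seifert pieces collapse onto their chosen walls
-/

set_option autoImplicit false
open Set unitInterval Topology

noncomputable section

namespace Crest.Agent.N233.Pc

open Ae

/-- the compact part -/
def AS (n : ℕ) (ty : JS n → Bool) (a : ℝ) : Set (ES n ty) := {x | ht x.1.2 ≤ a}

/-- the walls -/
def DS (n : ℕ) (ty : JS n → Bool) (j : JS n) : Set (ES n ty) := {x | tS n ty x.1 j = 0}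

namespace QS

variable {n : ℕ} {ty : JS n → Bool} {j : JS n} {x : R2 × R2} {a : ℝ}

theorem c_pos (n : ℕ) : (0 : ℝ) < 4 * n + 4 := by positivity

theorem d_out (u : R2) : 0 ≤ dS n (.inr true) u ↔ ‖u‖ ≤ 2 * n + 2 := by
  rw [dS, sub_nonneg, div_le_one (by positivity)]

theorem out_iff : 0 ≤ tS n ty x (.inr true) ↔
    ‖x.1‖ ≤ 2 * n + 2 ∧ (ty (.inr true) = false → 1 / 2 ≤ ‖x.2‖) := by
  rw [tS, if_pos rfl, mul_nonneg_iff_of_pos_left (c_pos n)]
  cases ty (.inr true)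
  · simp only [Bool.false_eq_true, if_false, le_min_iff, d_out, forall_const]
    exact and_congr_right fun _ => ⟨fun h => by linarith, fun h => by linarith⟩
  · simp [d_out]

theorem ne_iff (h : j ≠ .inr true) :
    0 ≤ tS n ty x j ↔ 0 ≤ dS n j x.1 ∨ (ty j = false ∧ ‖x.2‖ ≤ 1) := by
  rw [tS, if_neg h, mul_nonneg_iff_of_pos_left four_pos]
  cases ty j <;> simp

theorem ok_shrink (x : ES n ty) {z : R2} (h : ‖z‖ ≤ ‖x.1.2‖)
    (h' : ty (.inr true) = false → 1 / 2 ≤ ‖z‖) (j : JS n) : 0 ≤ tS n ty (x.1.1, z) j := by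
  by_cases e : j = .inr true
  · rw [e]; exact out_iff.2 ⟨(out_iff.1 (x.2 _)).1, h'⟩
  · exact (ne_iff e).2 (((ne_iff e).1 (x.2 j)).imp_right fun k => ⟨k.1, h.trans k.2⟩)


theorem le_out (x : ES n ty) : ‖x.1.1‖ ≤ 2 * n + 2 := (out_iff.1 (x.2 _)).1



theorem ht_mono {z z' : R2} (h : ‖z‖ ≤ ‖z'‖) : ht z ≤ ht z' :=
  max_le_max le_rfl (sub_le_sub_right h _)

theorem norm_sm (t : I) (z : R2) : ‖(1 - t : ℝ) • z‖ ≤ ‖z‖ := by
  rw [norm_smul, Real.norm_of_nonneg (sub_nonneg.2 t.2.2)]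
  exact mul_le_of_le_one_left (norm_nonneg _) (by linarith [t.2.1])

theorem rad {z : R2} (h : 1 / 2 ≤ ‖z‖) (t : I) {c : ℝ} (hc : 0 ≤ c) :
    ‖(1 - t : ℝ) • z + (t * c : ℝ) • nz z‖ = (1 - t) * ‖z‖ + t * c := by
  have h1 := t.2.1
  have h2 : (0 : ℝ) ≤ 1 - t := sub_nonneg.2 t.2.2
  conv_lhs => rw [← smul_nz h, smul_smul, nz_smul_nz h h, ← add_smul]
  exact norm_smul_unit (norm_nz h) (by positivity)

variable {Y : Type} [TopologicalSpace Y]

/-- the zero section -/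
def Z0 (n : ℕ) (ty : JS n → Bool) : Set (ES n ty) := {x | x.1.2 = 0}

theorem Z0_sub (ha : 0 ≤ a) : Z0 n ty ⊆ AS n ty a := fun x (hx : x.1.2 = 0) => by
  show ht x.1.2 ≤ a
  rwa [hx, ht_eq_zero.2 (by simp)]

/-- shrinking the fibre -/
def sh (ho : ty (.inr true) = true) (q : ES n ty × I) : ES n ty :=
  ⟨(q.1.1.1, (1 - q.2 : ℝ) • q.1.1.2), ok_shrink q.1 (norm_sm _ _) fun e => by simp [ho] at e⟩

theorem sh_cont (ho : ty (.inr true) = true) : Continuous (sh ho) :=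
  Continuous.subtype_mk (by fun_prop) _

theorem sh_mem (ho : ty (.inr true) = true) {x : ES n ty} (hx : x ∈ AS n ty a) (t : I) :
    sh ho (x, t) ∈ AS n ty a := (ht_mono (norm_sm _ _)).trans hx

theorem sh_zero (ho : ty (.inr true) = true) (x : ES n ty) : sh ho (x, 0) = x :=
  Subtype.ext (by simp [sh])

theorem sh_one (ho : ty (.inr true) = true) (x : ES n ty) : (sh ho (x, 1)).1.2 = 0 := by simp [sh]

end QS

open QS

variable {n : ℕ} {ty : JS n → Bool} {a : ℝ} {Y : Type} [TopologicalSpace Y]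

/-- (S1) the omitted type -/
theorem qS1 (h : ∀ j, ty j = false) (ha : 0 ≤ a) :
    Q Y (AS n ty a) (Rel (DS n ty) {.inr true}) := by
  have ho := h (.inr true)
  have hz : ∀ x : ES n ty, 1 / 2 ≤ ‖x.1.2‖ := fun x => (out_iff.1 (x.2 _)).2 ho
  have h1 : ∀ (x : ES n ty) (t : I), 1 / 2 ≤ ‖(1 - t : ℝ) • x.1.2 + (t * (1 / 2) : ℝ) • nz x.1.2‖ ∧
      ‖(1 - t : ℝ) • x.1.2 + (t * (1 / 2) : ℝ) • nz x.1.2‖ ≤ ‖x.1.2‖ := fun x t => by
    rw [rad (hz x) t one_half_pos.le]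
    have := hz x
    constructor <;> nlinarith [t.2.1, t.2.2]
  let r : ES n ty × I → ES n ty := fun q =>
    ⟨(q.1.1.1, (1 - q.2 : ℝ) • q.1.1.2 + (q.2 * (1 / 2) : ℝ) • nz q.1.1.2),
      ok_shrink q.1 (h1 _ _).2 fun _ => (h1 _ _).1⟩
  have hD : ∀ x : ES n ty, x ∈ DS n ty (.inr true) ↔
      min (dS n (.inr true) x.1.1) (2 * ‖x.1.2‖ - 1) ≤ 0 := fun x => by
    have := x.2 (.inr true)
    simp only [DS, mem_setOf_eq, tS, if_true, ho, Bool.false_eq_true, if_false] at this ⊢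
    rw [mul_eq_zero, or_iff_right (c_pos n).ne']
    exact ⟨le_of_eq, fun k => le_antisymm k ((mul_nonneg_iff_of_pos_left (c_pos n)).1 this)⟩
  have hn : ‖((1 / 2 : ℝ), (0 : ℝ))‖ = 1 / 2 := by norm_num [nrm]
  let x₀ : ES n ty := ⟨(0, (1 / 2, 0)), fun j => by
    by_cases e : j = .inr true
    · rw [e]; exact out_iff.2 ⟨by rw [norm_zero]; positivity, fun _ => hn.ge⟩
    · exact (ne_iff e).2 (Or.inr ⟨h j, by rw [hn]; norm_num⟩)⟩
  have h0 : x₀ ∈ AS n ty a ∩ DS n ty (.inr true) :=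
    ⟨(ht_eq_zero.2 (by rw [hn]; norm_num)).trans_le ha,
      (hD _).2 (min_le_of_right_le (by rw [hn]; norm_num))⟩
  refine (q_of_rel h0 fun x hx => Or.inr ⟨_, rfl, hx.2, h0.2⟩).deform inter_subset_left (r := r)
    (Continuous.continuousOn (Continuous.subtype_mk (by fun_prop) _))
    (fun x hx t => (ht_mono (h1 x t).2).trans hx) (fun x _ => Or.inl (Subtype.ext (by simp [r])))
    (fun x hx => ⟨(ht_mono (h1 x 1).2).trans hx, (hD _).2 (min_le_of_right_le ?_)⟩) ?_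
  · simp only [r, rad (hz x) 1 one_half_pos.le]; norm_num
  · rintro x - x' - ⟨_, rfl, k, k'⟩ t
    have key : ∀ y ∈ DS n ty (.inr true), r (y, t) ∈ DS n ty (.inr true) := fun y hy =>
      (hD _).2 ((min_le_min le_rfl (by have := (h1 y t).2; simp only [r]; linarith)).trans
        ((hD y).1 hy))
    exact Or.inr ⟨_, rfl, key x k, key x' k'⟩





end Crest.Agent.N233.Pc

end
end

-- ▼ part N233/Pc/QS2
section

/-!
# Row 233 (helper53): the Seifert pieces with an arbitrary pattern of inner walls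
-/

set_option autoImplicit false
open Set unitInterval Topology

noncomputable section

namespace Crest.Agent.N233.Pc

open Ae QS Pr

variable {n : ℕ} {ty : JS n → Bool} {a : ℝ} {Y : Type} [TopologicalSpace Y] {j j' : JS n} {u : R2}

namespace QS

theorem cont_dS (j : JS n) : Continuous (dS n j) := by
  rcases j with j | _ | _ <;> unfold dS <;> (try unfold nS) <;> fun_prop

theorem d_sep (hj : j ≠ .inr true) (e : j ≠ j') (h : dS n j u ≤ 0) : 0 < dS n j' u := by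
  have := tS_sep (ty := fun _ => true) (by simp) e (u, 0) (by
    rw [tS, if_neg hj, if_pos rfl]; linarith)
  rw [tS, if_pos (rfl : true = true), if_pos (rfl : true = true)] at this
  split_ifs at this
  · exact (mul_pos_iff_of_pos_left (c_pos n)).1 (one_pos.trans this)
  · linarith

theorem ok_zero' (ho : ty (.inr true) = true) (h : ‖u‖ ≤ 2 * n + 2)
    (h' : ∀ j, j ≠ .inr true → ty j = true → 0 ≤ dS n j u) (j : JS n) : 0 ≤ tS n ty (u, 0) j := by
  by_cases e : j = .inr true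
  · rw [e]; exact out_iff.2 ⟨h, fun e => by simp [ho] at e⟩
  · refine (ne_iff e).2 ?_
    cases e' : ty j
    · exact Or.inr ⟨rfl, by simp⟩
    · exact Or.inl (h' j e e')

theorem mem_true (hj : j ≠ .inr true) (ht : ty j = true) {x : ES n ty} :
    x ∈ DS n ty j ↔ dS n j x.1.1 = 0 := by simp [DS, tS, hj, ht]

theorem le_of_mem (hj : j ≠ .inr true) {x : ES n ty} (h : x ∈ DS n ty j) : dS n j x.1.1 ≤ 0 := by
  have := (tS_hole (ty := ty) hj x.1).1
  rw [show tS n ty x.1 j = 0 from h] at this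
  linarith

theorem d_σ (hj : j ≠ .inr true) {w : R2} (hw : ‖w‖ ≤ 1) : dS n j (σS n j w) = ‖w‖ - 1 := by
  rw [dS_σS j (hw.trans one_le_two), if_neg hj]

/-- contraction of a hole -/
def ct (j : JS n) (u : R2) (t : ℝ) : R2 := σS n j (qp ((1 - t) • σS' n j u) 0).1

theorem ct_cont (j : JS n) : Continuous fun q : R2 × I => ct j q.1 q.2 :=
  have h : Continuous fun q : R2 × I => (1 - q.2 : ℝ) • σS' n j q.1 :=
    Continuous.smul (f := fun q : R2 × I => (1 - q.2 : ℝ)) (by fun_prop)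
      ((cont_σS' j).comp continuous_fst)
  (cont_σS j).comp (continuous_qp (X := R2 × I) h (continuous_const (y := (0 : ℝ)))).fst

theorem ct_mem (hj : j ≠ .inr true) (u : R2) (t : ℝ) : dS n j (ct j u t) ≤ 0 := by
  have := norm_qp_le ((1 - t) • σS' n j u) (by norm_num : (-1 : ℝ) ≤ 0)
  rw [add_zero] at this
  rw [ct, d_σ hj this]; linarith

theorem ct_zero (hj : j ≠ .inr true) (h : dS n j u ≤ 0) : ct j u 0 = u := by
  have := norm_σS' hj u
  rw [ct, sub_zero, one_smul, qp_of_le (by linarith), add_zero, one_smul,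
    σS_ri fun _ => by linarith]

theorem ct_one (j : JS n) (u : R2) : ct j u 1 = σS n j 0 := by simp [ct, qp]

theorem ball_of (hj : j ≠ .inr true) (h : dS n j u ≤ 0) : ‖u‖ ≤ 2 * n + 2 :=
  (d_out u).1 (d_sep hj hj h).le

end QS

/-- the chosen walls of a non-omitted piece -/
def JT (n : ℕ) (ty : JS n → Bool) : Set (JS n) := {j | j ≠ .inr true ∧ ty j = true}

/-- a non-omitted piece collapses onto its inner product walls -/
theorem qS (hY : LNE Y) (ho : ty (.inr true) = true) (ha : 0 ≤ a) :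
    Q Y (AS n ty a) (Rel (DS n ty) (JT n ty)) := by
  let A : Set R2 := {u | ‖u‖ ≤ 2 * n + 2 ∧ ∀ j ∈ JT n ty, 0 ≤ dS n j u}
  let N : JS n → Set R2 := fun j => {u | dS n j u ≤ 0}
  have cN : ∀ j, IsClosed (N j) := fun j => isClosed_le (cont_dS j) continuous_const
  have dN : ∀ i ∈ JT n ty, ∀ j ∈ JT n ty, ∀ x, x ∈ N i → x ∈ N j → i = j := fun i hi j _ x p q =>
    by_contra fun e => (d_sep hi.1 e p).not_ge q
  have cA : IsClosed A := by
    have : A = {u | ‖u‖ ≤ 2 * n + 2} ∩ ⋂ j ∈ JT n ty, {u | 0 ≤ dS n j u} := by ext; simp [A]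
    rw [this]
    exact (isClosed_le continuous_norm continuous_const).inter
      (isClosed_biInter fun j _ => isClosed_le continuous_const (cont_dS j))
  have sA : A ⊆ Metric.closedBall 0 (2 * n + 2) := fun u hu => mem_closedBall_zero_iff.2 hu.1
  have h0 : (0 : R2) ∈ Metric.closedBall (0 : R2) (2 * n + 2) :=
    Metric.mem_closedBall_self (by positivity)
  have q0 : Q Y (Metric.closedBall (0 : R2) (2 * n + 2)) (Rel N (JT n ty)) :=
    q_contr hY (isCompact_closedBall _ _) (toFinite _) (fun j _ => cN j)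
      (fun i hi j hj x _ => dN i hi j hj x) (fun j => σS n j 0)
      (fun j hj => ct_one j 0 ▸ ct_mem hj.1 0 1)
      (fun j hj => ⟨fun q => ct j q.1 q.2, (ct_cont j).continuousOn, fun x _ t =>
        ⟨mem_closedBall_zero_iff.2 (ball_of hj.1 (ct_mem hj.1 x t)), ct_mem hj.1 x t⟩,
        fun x hx => ct_zero hj.1 hx.2, fun x _ => ct_one j x⟩)
      ((df_star ((convex_closedBall _ _).starConvex h0)).q (singleton_subset_iff.2 h0) (q_pt _ _))
  have hn : ‖((1 : ℝ), (0 : ℝ))‖ = 1 := by norm_num [nrm]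
  have q1 : Q Y A (Rel (fun j => {u | dS n j u = 0}) (JT n ty)) := by
    refine q0.fill (toFinite _) cA (fun j _ => cN j) sA (fun u hu => ?_) dN
      (fun j hj u hu => ⟨fun k => le_antisymm k (hu.2 j hj), fun k => le_of_eq k⟩)
      (fun j => σS n j (1, 0)) fun j hj => ?_
    · by_cases k : ∃ j ∈ JT n ty, dS n j u ≤ 0
      · exact Or.inr (mem_iUnion₂.2 (let ⟨j, hj, k⟩ := k; ⟨j, hj, k⟩))
      · exact Or.inl ⟨mem_closedBall_zero_iff.1 hu, fun j hj => le_of_not_ge fun k' => k ⟨j, hj, k'⟩⟩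
    · have e : dS n j (σS n j (1, 0)) = 0 := by rw [d_σ hj.1 hn.le, hn, sub_self]
      refine ⟨⟨ball_of hj.1 e.le, fun i _ => ?_⟩, e⟩
      by_cases k : j = i
      · exact k ▸ e.ge
      · exact (d_sep hj.1 k e.le).le
  have mA : ∀ x : ES n ty, x.1.1 ∈ A := fun x => ⟨le_out x, fun j hj =>
    ((ne_iff hj.1).1 (x.2 j)).elim id fun k => by simp [hj.2] at k⟩
  have mk : ∀ u ∈ A, ∀ j, 0 ≤ tS n ty (u, 0) j := fun u hu =>
    ok_zero' ho hu.1 fun j h1 h2 => hu.2 j ⟨h1, h2⟩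
  have e1 : (fun x : ES n ty => x.1.1) '' Z0 n ty = A :=
    Subset.antisymm (by rintro _ ⟨x, -, rfl⟩; exact mA x) fun u hu => ⟨⟨(u, 0), mk u hu⟩, rfl, rfl⟩
  have e2 : Subtype.val '' Z0 n ty = A ×ˢ {0} :=
    Subset.antisymm (by rintro _ ⟨x, hx, rfl⟩; exact ⟨mA x, hx⟩) fun u hu =>
      ⟨⟨(u.1, 0), mk _ hu.1⟩, rfl, Prod.ext rfl (Eq.symm hu.2)⟩
  have kZ : IsCompact (Z0 n ty) := IsInducing.subtypeVal.isCompact_iff.2
    (e2 ▸ ((isCompact_closedBall _ _).of_isClosed_subset cA sA).prod isCompact_singleton)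
  have hb : ‖((2 * n + 2 : ℝ), (0 : ℝ))‖ = 2 * n + 2 := by
    rw [nrm, abs_zero, abs_of_nonneg (by positivity), max_eq_left (by positivity)]
  have q2 : Q Y (Z0 n ty) (Rel (DS n ty) (JT n ty)) :=
    Q.comap (φ := fun x : ES n ty => x.1.1) (R := Rel (fun j => {u | dS n j u = 0}) (JT n ty))
      (e1 ▸ q1) kZ (Continuous.continuousOn (by fun_prop))
      (fun x hx x' hx' e => Subtype.ext (Prod.ext e (hx.trans (Eq.symm hx'))))
      (fun x _ x' _ => exists_congr fun j => and_congr_right fun hj =>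
        and_congr (mem_true hj.1 hj.2) (mem_true hj.1 hj.2))
      ⟨((2 * n + 2, 0), 0), ok_zero' ho hb.le fun j h _ => le_of_not_gt fun k => by
        have := d_sep h h k.le
        rw [dS, hb, div_self (by positivity), sub_self] at this
        exact this.false⟩
  refine q2.deform (Z0_sub ha) (sh_cont ho).continuousOn (fun x hx t => sh_mem ho hx t)
    (fun x _ => Or.inl (sh_zero ho x)) (fun x _ => sh_one ho x) ?_
  rintro x - x' - ⟨j, hj, k, k'⟩ t
  exact Or.inr ⟨j, hj, (mem_true hj.1 hj.2).2 ((mem_true hj.1 hj.2 (x := x)).1 k),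
    (mem_true hj.1 hj.2).2 ((mem_true hj.1 hj.2 (x := x')).1 k')⟩

/-- in a non-omitted piece the prism walls are null-homotopic -/
theorem nqS' (ho : ty (.inr true) = true) (hj : ty j = false) (ha : 0 ≤ a)
    (R : ES n ty → ES n ty → Prop) : Nq Y (AS n ty a) R (AS n ty a ∩ DS n ty j) := by
  have hj' : j ≠ .inr true := fun e => by simp [e, ho] at hj
  let r : ES n ty × I → ES n ty := fun q =>
    ⟨(ct j q.1.1.1 q.2, 0), ok_zero' ho (ball_of hj' (ct_mem hj' _ _)) fun i _ hi =>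
      (d_sep hj' (fun e => by simp [← e, hj] at hi) (ct_mem hj' _ _)).le⟩
  have cr : Continuous r := Continuous.subtype_mk (((ct_cont j).comp
    (f := fun q : ES n ty × I => (q.1.1.1, q.2)) (by fun_prop)).prodMk continuous_const) _
  let x₀ : ES n ty := ⟨(ct j 0 0, 0), ok_zero' ho (ball_of hj' (ct_mem hj' _ _)) fun i _ hi =>
    (d_sep hj' (fun e => by simp [← e, hj] at hi) (ct_mem hj' _ _)).le⟩
  have n1 : Nq Y (AS n ty a) R {x | x.1.2 = 0 ∧ dS n j x.1.1 ≤ 0} :=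
    (nq_of_rel (B := {r (x₀, 1)}) (Z0_sub ha (rfl : (r (x₀, 1)).1.2 = 0))
      (singleton_subset_iff.2 (Z0_sub ha rfl)) fun x hx => Or.inl hx).deform
      (fun x hx => Z0_sub ha hx.1) cr.continuousOn (fun _ _ _ => Z0_sub ha rfl)
      (fun x hx => Or.inl (Subtype.ext (Prod.ext (ct_zero hj' hx.2) hx.1.symm)))
      fun x _ => Subtype.ext (Prod.ext ((ct_one j _).trans (ct_one j _).symm) rfl)
  exact n1.deform inter_subset_left (sh_cont ho).continuousOn (fun x hx t => sh_mem ho hx.1 t)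
    (fun x _ => Or.inl (sh_zero ho x)) (fun x hx => ⟨sh_one ho x, le_of_mem hj' (x := x) hx.2⟩)

end Crest.Agent.N233.Pc

end
end

-- ▼ part N233/Ae/Nu

/-!
# Row 233 (helper61): the cover of the bipartite filling has null-homotopic compact sets
-/

set_option autoImplicit false
open Set Relation

noncomputable section

namespace Crest.Agent.N233.Pc.In

open Ae Hyp

theorem tp_inj3 {f f' : F2} {ε ε' : Bool} (h : f.1 * tp ε = f'.1 * tp ε') : f = f' ∧ ε = ε' := by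
  have k := congrArg (fun v => (χ v).toAdd) h
  simp only [χ.map_mul, toAdd_mul, χ_tp] at k
  obtain ⟨a, ha⟩ := Wu.mem_Gn.1 f.2
  obtain ⟨b, hb⟩ := Wu.mem_Gn.1 f'.2
  obtain rfl : ε = ε' := by
    cases ε <;> cases ε' <;> simp at k ⊢ <;> omega
  exact ⟨Subtype.ext (mul_right_cancel h), rfl⟩

theorem tp_sur3 (v : F3) : ∃ (f : F2) (ε : Bool), f.1 * tp ε = v := by
  by_cases h : v ∈ F2
  · exact ⟨⟨v, h⟩, false, mul_one v⟩
  · refine ⟨⟨v * (tp true)⁻¹, ?_⟩, true, inv_mul_cancel_right _ _⟩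
    rw [Wu.mem_Gn] at h ⊢
    rw [χ.map_mul, χ.map_inv, toAdd_mul, toAdd_inv, χ_tp]
    simp only [if_true]
    omega

/-- nodes of the tree -/
def φ3 (v : F2 × Nd) : F3 × Option (Fin 3) := (vt v.1 v.2, v.2.2)

/-- edges of the tree -/
def ψ3 (e : F2 × Ed) : F3 × Fin 3 × Bool := (e.1.1 * tp e.2.1, e.2.2)

theorem φ3_inj : Function.Injective φ3 := fun v w h =>
  let a := tp_inj3 (congrArg Prod.fst h)
  Prod.ext a.1 (Prod.ext a.2 (congrArg (·.2) h :))

theorem ψ3_inj : Function.Injective ψ3 := fun v w h =>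
  let a := tp_inj3 (congrArg Prod.fst h)
  Prod.ext a.1 (Prod.ext a.2 (congrArg (·.2) h :))

theorem ψ3_sur : Function.Surjective ψ3 := fun ⟨v, k⟩ =>
  let ⟨f, ε, h⟩ := tp_sur3 v
  ⟨(f, ε, k), Prod.ext h rfl⟩

theorem end3 (e : F2 × Ed) :
    End src3 tgt3 (ψ3 e) (φ3 (side g wn true e)) (φ3 (side g wn false e)) := by
  obtain ⟨f, ε, i, _ | _⟩ := e
  · exact Or.inl ⟨Prod.ext (congrArg (· * tp ε) (mul_one f.1)) rfl,
      Prod.ext (congrArg (· * tp ε) (mul_one f.1)) rfl⟩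
  · refine Or.inl ⟨Prod.ext (congrArg (· * tp ε) (mul_one f.1)) rfl, Prod.ext ?_ rfl⟩
    show f.1 * (tp ε * .of i * (tp (nx ε i))⁻¹) * tp (nx ε i) = f.1 * tp ε * .of i
    group

theorem coc : Coc (side g wn true) (side g wn false) := coc_pull coc3 ψ3_inj end3

theorem conn (t t' : F2 × Nd) :
    ReflTransGen (fun u v => ∃ d, End (side g wn true) (side g wn false) d u v) t t' :=
  conn_pull conn3 φ3_inj ψ3_sur end3 t t'

/-- chosen walls -/
def kb : Nd → Fin 3 → Bool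
  | (_, none), k => decide (k ≠ 0)
  | (ε, some i), k => if i = om ε then decide (k = 0) else decide (k ≠ 0) && ty ε i (e3 k)

theorem kb_iff (j : Ed × Bool) : kb (eJ j).1 (eJ j).2 = true ↔
    kb (eJ (j.1, true)).1 (eJ (j.1, true)).2 = j.2 := by
  revert j; decide

variable (H : TM) {Y : Type} [TopologicalSpace Y]

theorem AB_eq (ε : Bool) (a : ℝ) :
    {x | sm (P1 H (ε, none)) x ≤ a} = {x : EB | ht x.1.1 ≤ a} :=
  Set.ext fun x => by rw [mem_ofPred_eq, show sm (P1 H (ε, none)) x = ht x.1.1 from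
    sm_gm gmB tt H.tB H.hB x]; rfl

theorem AS_eq (ε : Bool) (i : Fin 3) (a : ℝ) :
    {x | sm (P1 H (ε, some i)) x ≤ a} = AS 1 (ty ε i) a :=
  Set.ext fun x => by rw [mem_ofPred_eq, show sm (P1 H (ε, some i)) x = ht x.1.2 from
    sm_gm (gmS 1 (ty ε i) (ty_ok ε i)) tt H.tS (H.hS _) x]; rfl

theorem rel_S (ε : Bool) (i : Fin 3) {K : Set (Fin 3)} {K' : Set (JS 1)}
    (h : ∀ k, k ∈ K ↔ e3 k ∈ K') (x x' : ES 1 (ty ε i)) : Rel (DS 1 (ty ε i)) K' x x' ↔
      Rel (wall (P1 H (ε, some i)).toWl) K x x' :=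
  ⟨fun ⟨j, a, b⟩ => by
    obtain ⟨k, rfl⟩ := e3.surjective j
    exact ⟨k, (h k).2 a, b⟩, fun ⟨k, a, b⟩ => ⟨e3 k, (h k).1 a, b⟩⟩

theorem hq (hY : LNE Y) (n : Nd) (a : ℝ) (ha : 0 ≤ a) :
    Q Y {x | sm (P1 H n) x ≤ a} (Rel (wall (P1 H n).toWl) {k | kb n k = true}) := by
  obtain ⟨ε, _ | i⟩ := n
  · rw [AB_eq, show {k | kb (ε, none) k = true} = {1, 2} from Set.ext fun k => by
      simp only [mem_ofPred_eq, mem_insert_iff, mem_singleton_iff]; revert ε k; decide]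
    exact qB ha
  · rw [AS_eq]
    by_cases h : i = om ε
    · have k : ∀ k, kb (ε, some i) k = true ↔ e3 k = .inr true := by revert h ε i; decide
      exact (qS1 (by revert h ε i; decide) ha).congr fun x _ x' _ => rel_S H ε i k x x'
    · have k : ∀ k, kb (ε, some i) k = true ↔ e3 k ≠ .inr true ∧ ty ε i (e3 k) = true := by
        revert h ε i; decide
      exact (qS hY (by revert h ε i; decide) ha).congr fun x _ x' _ => rel_S H ε i k x x'

/-- base points -/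
def x0 (n : Nd) : (P1 H n).E := (P1 H n).toWl.w 0 (alK 0, 0)

theorem kl_all (hY : LNE Y) (d : Ed) :
    Kl Y (PP H).toWl Sigma.fst (fun j => (eJ j).1) (sm (PP H)) d := by
  have N := nodes_bk (P1 H) eJ tt
  set P := Kl Y (PP H).toWl Sigma.fst (fun j => (eJ j).1) (sm (PP H)) with hP
  have q : ∀ n k, (∀ k', kb n k' = true → P (eJ.symm ⟨n, k'⟩).1) → P (eJ.symm ⟨n, k⟩).1 :=
    fun n k h => N.kl_q k {k | kb n k = true} h (hq H hY n) (x0 H n)
  have s1 : ∀ ε, P (ε, 2, true) := fun ε =>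
    N.kl (n := (ε, some 2)) 2 ∅ (fun _ k => k.elim) (fun a ha => by
      rw [AS_eq]
      exact nqS' (j := e3 2) (by revert ε; decide) (by revert ε; decide) ha _) (x0 H _)
  have s2 : ∀ ε, P (ε, 2, false) := fun ε => q (ε, some 2) 0 fun k hk => by
    rw [show (eJ.symm ⟨(ε, some 2), k⟩).1 = (ε, 2, true) by revert hk ε k; decide]
    exact s1 ε
  have s3 : ∀ ε, P (ε, om ε, false) := fun ε => by
    rw [show (ε, om ε, false) = (eJ.symm ⟨(ε, none), 0⟩).1 by revert ε; decide]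
    refine N.kl (n := (ε, none)) 0 {2 - om ε} ?_ (fun a ha => ?_) (x0 H _)
    · rintro _ rfl
      rw [show (eJ.symm ⟨(ε, none), 2 - om ε⟩).1 = (ε, 2, false) by revert ε; decide]
      exact s2 ε
    · rw [AB_eq]
      exact nqB ha (by revert ε; decide)
  have s4 : ∀ ε k, P (eJ.symm ⟨(ε, some (om ε)), k⟩).1 := fun ε k => q _ k fun k' hk => by
    rw [show (eJ.symm ⟨(ε, some (om ε)), k'⟩).1 = (ε, om ε, false) by revert hk ε k'; decide]
    exact s3 ε
  have s5 : ∀ ε i, P (ε, i, true) := fun ε i => by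
    have : i = 2 ∨ ∃ ε' k, (ε, i, true) = (eJ.symm ⟨(ε', some (om ε')), k⟩).1 := by
      revert ε i; decide
    rcases this with rfl | ⟨ε', k, e⟩
    · exact s1 ε
    · rw [e]; exact s4 ε' k
  obtain ⟨ε, i, _ | _⟩ := d
  · by_cases h : i = om ε
    · rw [h]; exact s3 ε
    · refine q (ε, some i) 0 fun k hk => ?_
      obtain ⟨ε', e⟩ : ∃ ε', (eJ.symm ⟨(ε, some i), k⟩).1 = (ε', i, true) := by
        revert hk h ε i k; decide
      rw [e]; exact s5 ε' i
  · exact s5 ε i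

/-- **compact subsets of the cover of the filling are null-homotopic** -/
theorem null : Null ((PP H).toWl.Gl g) :=
  have L : LNE ((PP H).toWl.Gl g) := @lne_euc _ _ 4 (charted (Wl.le_all le_VW))
  (nodes_bk (P1 H) eJ tt).null coc conn (x0 H) (fun n => {k | kb n k = true})
    (fun d => kb (eJ (d, true)).1 (eJ (d, true)).2) kb_iff (hq H L) (kl_all H L)

end Crest.Agent.N233.Pc.In

end
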